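import Vale.Agent.P155Z.Sk
import Vale.Agent.P155.CI.Img

/-!
# P155, blocks HL and GLUE: the holes of a carpet and of the glued carpets
-/

namespace Vale.Agent.P155.Tree.Hl

open MeasureTheory Filter Topology Set TopologicalSpace Metric Vale.Agent.P155
  Vale.Agent.P155.Q1 Vale.Agent.P155.Uq

theorem coe_toNC {S : Set ℂ} (h1 : IsCompact S) (h2 : S.Nonempty) : (toNC S : Set ℂ) = S := by
  unfold toNC
  rw [dif_pos ⟨h1, h2⟩]
  rfl

theorem frontier_ne {V : Set ℂ} (hb : Bornology.IsBounded V) (hV : V.Nonempty) :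
    (frontier V).Nonempty := by
  rw [nonempty_frontier_iff]
  refine ⟨hV, fun hu => ?_⟩
  rw [hu] at hb
  exact NormedSpace.unbounded_univ ℂ ℂ hb

theorem coe_fr {V : Set ℂ} (hb : Bornology.IsBounded V) (hV : V.Nonempty) :
    (toNC (frontier V) : Set ℂ) = frontier V :=
  coe_toNC (hb.isCompact_closure.of_isClosed_subset isClosed_frontier frontier_subset_closure)
    (frontier_ne hb hV)

section

variable {Ω A V : Set ℂ}

theorem hole_isOpen (ho : IsOpen Ω) (hA : IsClosed A) (hV : IsHole Ω A V) : IsOpen V := by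
  obtain ⟨z, -, rfl⟩ := hV
  exact (ho.sdiff hA).connectedComponentIn

theorem hole_sub (hV : IsHole Ω A V) : V ⊆ Ω \ A := by
  obtain ⟨z, -, rfl⟩ := hV
  exact connectedComponentIn_subset _ _

theorem hole_ne (hV : IsHole Ω A V) : V.Nonempty := by
  obtain ⟨z, hz, rfl⟩ := hV
  exact ⟨z, mem_connectedComponentIn hz⟩

theorem hole_bdd (hb : Bornology.IsBounded Ω) (hV : IsHole Ω A V) : Bornology.IsBounded V :=
  hb.subset ((hole_sub hV).trans sdiff_subset)

theorem hole_eq (hV : IsHole Ω A V) {w : ℂ} (hw : w ∈ V) : NCLE.hole Ω A w = V := by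
  obtain ⟨z, -, rfl⟩ := hV
  exact (connectedComponentIn_eq hw).symm

theorem hole_conn (hV : IsHole Ω A V) : IsConnected V := by
  obtain ⟨z, hz, rfl⟩ := hV
  exact isConnected_connectedComponentIn_iff.2 hz

theorem isHole_hole {z : ℂ} (hz : z ∈ Ω \ A) : IsHole Ω A (NCLE.hole Ω A z) := ⟨z, hz, rfl⟩

theorem mem_hole {z : ℂ} (hz : z ∈ Ω \ A) : z ∈ NCLE.hole Ω A z := mem_connectedComponentIn hz

theorem hole_frontier_sub (ho : IsOpen Ω) (hA : IsClosed A) (hfr : frontier Ω ⊆ A)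
    (hV : IsHole Ω A V) : frontier V ⊆ A := by
  intro w hw
  by_contra hwA
  have h1 : w ∈ closure Ω :=
    closure_mono ((hole_sub hV).trans sdiff_subset) (frontier_subset_closure hw)
  have h2 : w ∈ Ω := by
    by_contra hwΩ
    exact hwA (hfr (by rw [ho.frontier_eq]; exact ⟨h1, hwΩ⟩))
  have hwO : w ∈ Ω \ A := ⟨h2, hwA⟩
  have hop : IsOpen (NCLE.hole Ω A w) := hole_isOpen ho hA (isHole_hole hwO)
  obtain ⟨x, hx1, hx2⟩ := mem_closure_iff.1 (frontier_subset_closure hw) _ hop (mem_hole hwO)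
  have e : NCLE.hole Ω A w = V := by
    rw [← hole_eq hV hx2, hole_eq (isHole_hole hwO) hx1]
  have hww := mem_hole hwO
  rw [e] at hww
  rw [(hole_isOpen ho hA hV).frontier_eq] at hw
  exact hw.2 hww

theorem idx_mem (ho : IsOpen V) (hV : V.Nonempty) : denseSeq ℂ (idx V) ∈ V := by
  obtain ⟨i, hi⟩ := (denseRange_denseSeq ℂ).exists_mem_open ho hV
  exact Nat.sInf_mem (s := {i | denseSeq ℂ i ∈ V}) ⟨i, hi⟩

end

variable {Ω : Set ℂ} {K : NonemptyCompacts ℂ} {h : ℂ → ℝ} {V : Set ℂ}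
  {a b : NonemptyCompacts ℂ → ℕ → ℂ → ℂ}

theorem h_const (hT : Typed Ω K h) (hV : IsHole Ω K V) {z w : ℂ} (hz : z ∈ V) (hw : w ∈ V) :
    h z = h w := by
  have hc : ContinuousOn h V := fun x hx =>
    (continuousAt_const.congr (EventuallyEq.symm (f := h) (g := fun _ => h x)
      (hT.loc x (hole_sub hV hx)))).continuousWithinAt
  refine (hole_conn hV).isPreconnected.constant_of_mapsTo (T := {0, 1, -1})
    (Set.toFinite _).isDiscrete hc (fun x _ => ?_) hz hw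
  rcases hT.val x with e | e | e <;> simp [e]

theorem ix_const (hT : Typed Ω K h) (hV : IsHole Ω K V) {z w : ℂ} (hz : z ∈ V) (hw : w ∈ V) :
    ix Ω K h z = ix Ω K h w := by
  unfold ix
  rw [hole_eq hV hz, hole_eq hV hw, h_const hT hV hz hw]

theorem ix_true {z : ℂ} : (ix Ω K h z).2 = true ↔ h z ≠ 0 := by
  unfold ix
  simp

theorem conf_hole (ho : IsOpen Ω) (hR : Rie Ω a b) (hT : Typed Ω K h) (hV : IsHole Ω K V) {z : ℂ}
    (hz : z ∈ V) : CI.Conf DD V (b K (ix Ω K h z).1) (a K (ix Ω K h z).1) := by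
  have e : (ix Ω K h z).1 = idx V := by
    unfold ix
    rw [hole_eq hV hz]
  have hm := idx_mem (hole_isOpen ho K.isCompact.isClosed hV) (hole_ne hV)
  have := hR.conf K (idx V) hT.carp (hole_sub hV hm)
  rw [hole_eq hV hm] at this
  rw [e]
  exact this.symm

/-- the image of the level `k` of the copy used in the hole at `z` -/
noncomputable def TV (M : Model) (Ω : Set ℂ) (a : NonemptyCompacts ℂ → ℕ → ℂ → ℂ)
    (K : NonemptyCompacts ℂ) (h : ℂ → ℝ) (s : M.Cop) (z : ℂ) (k : ℕ) : Set ℂ :=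
  CI.img (NCLE.hole Ω K z) (a K (ix Ω K h z).1) (M.G k (s (ix Ω K h z)))

variable {M : Model} {s : M.Cop}

theorem coe_TV (hD : Dom Ω) (hR : Rie Ω a b) (hT : Typed Ω K h) {z : ℂ}
    (hz : z ∈ Ω \ (K : Set ℂ)) (k : ℕ) :
    (toNC (TV M Ω a K h s z k) : Set ℂ) = TV M Ω a K h s z k := by
  have hV := isHole_hole hz
  have hb := hole_bdd hD.2.1 hV
  exact coe_toNC (CI.isCompact_img (conf_hole hD.1 hR hT hV (mem_hole hz)) hb
    (M.G k _).isCompact.isClosed) ((frontier_ne hb (hole_ne hV)).mono (CI.frontier_sub_img _ _))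

theorem mem_TV (ho : IsOpen Ω) {z w : ℂ} (hz : z ∈ Ω \ (K : Set ℂ)) (hw : w ∈ NCLE.hole Ω K z)
    (k : ℕ) : w ∈ TV M Ω a K h s z k ↔
      a K (ix Ω K h z).1 w ∈ (M.G k (s (ix Ω K h z)) : Set ℂ) := by
  constructor
  · rintro (h1 | h1)
    · exact h1.2
    · rw [(hole_isOpen ho K.isCompact.isClosed (isHole_hole hz)).frontier_eq] at h1
      exact absurd hw h1.2
  · intro h1
    exact Or.inl ⟨hw, h1⟩

theorem mem_glG (hJ : JM) (hD : Dom Ω) (hR : Rie Ω a b) (hT : Typed Ω K h) {k : ℕ} (hk : k ≠ 0)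
    {z w : ℂ} (hz : z ∈ Ω \ (K : Set ℂ)) (hw : w ∈ NCLE.hole Ω K z) :
    w ∈ (glG M Ω a K h s k : Set ℂ) ↔ w ∈ TV M Ω a K h s z (lev k (ix Ω K h z).2) := by
  have hV := isHole_hole hz
  rw [(hJ M Ω a b hD hR).1 K h hT s k hk, mem_TV hD.1 hz hw,
    ← ix_const hT hV hw (mem_hole hz)]
  constructor
  · rintro (h1 | h1)
    · exact absurd h1 (hole_sub hV hw).2
    · exact h1.2
  · intro h1
    exact Or.inr ⟨hole_sub hV hw, h1⟩

theorem sub_glG (hJ : JM) (hD : Dom Ω) (hR : Rie Ω a b) (hT : Typed Ω K h) {k : ℕ} (hk : k ≠ 0) :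
    (K : Set ℂ) ⊆ glG M Ω a K h s k := by
  rw [(hJ M Ω a b hD hR).1 K h hT s k hk]
  exact subset_union_left

theorem cc_eq (hJ : JM) (hD : Dom Ω) (hR : Rie Ω a b) (hT : Typed Ω K h) {k : ℕ} (hk : k ≠ 0)
    {z w : ℂ} (hz : z ∈ Ω \ (K : Set ℂ)) (hw : w ∈ NCLE.hole Ω K z)
    (hw' : w ∉ (glG M Ω a K h s k : Set ℂ)) :
    connectedComponentIn (Ω \ (glG M Ω a K h s k : Set ℂ)) w =
      connectedComponentIn (NCLE.hole Ω K z \ TV M Ω a K h s z (lev k (ix Ω K h z).2)) w := by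
  have hV := isHole_hole hz
  have hwO : w ∈ Ω \ (glG M Ω a K h s k : Set ℂ) := ⟨(hole_sub hV hw).1, hw'⟩
  refine Subset.antisymm ?_ (connectedComponentIn_mono w fun x hx =>
    ⟨(hole_sub hV hx.1).1, fun h1 => hx.2 ((mem_glG hJ hD hR hT hk hz hx.1).1 h1)⟩)
  have h1 : connectedComponentIn (Ω \ (glG M Ω a K h s k : Set ℂ)) w ⊆ NCLE.hole Ω K z := by
    rw [← hole_eq hV hw]
    exact connectedComponentIn_mono w (sdiff_subset_sdiff_right (sub_glG hJ hD hR hT hk))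
  refine isPreconnected_connectedComponentIn.subset_connectedComponentIn
    (mem_connectedComponentIn hwO) fun x hx => ⟨h1 hx, fun h2 => ?_⟩
  exact (connectedComponentIn_subset _ _ hx).2 ((mem_glG hJ hD hR hT hk hz (h1 hx)).2 h2)

/-- the holes of the glued carpets -/
theorem isHole_gl (hJ : JM) (hD : Dom Ω) (hR : Rie Ω a b) (hT : Typed Ω K h) {k : ℕ} (hk : k ≠ 0)
    (U : Set ℂ) : IsHole Ω (glG M Ω a K h s k) U ↔ ∃ z ∈ Ω \ (K : Set ℂ),
      IsHole (NCLE.hole Ω K z) (TV M Ω a K h s z (lev k (ix Ω K h z).2)) U := by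
  constructor
  · rintro ⟨w, hw, rfl⟩
    have hz : w ∈ Ω \ (K : Set ℂ) := ⟨hw.1, fun h1 => hw.2 (sub_glG hJ hD hR hT hk h1)⟩
    exact ⟨w, hz, w, ⟨mem_hole hz, fun h1 => hw.2
      ((mem_glG hJ hD hR hT hk hz (mem_hole hz)).2 h1)⟩, cc_eq hJ hD hR hT hk hz (mem_hole hz) hw.2⟩
  · rintro ⟨z, hz, w, hw, rfl⟩
    have hw' : w ∉ (glG M Ω a K h s k : Set ℂ) :=
      fun h1 => hw.2 ((mem_glG hJ hD hR hT hk hz hw.1).1 h1)
    exact ⟨w, ⟨(hole_sub (isHole_hole hz) hw.1).1, hw'⟩, (cc_eq hJ hD hR hT hk hz hw.1 hw').symm⟩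

/-- level `0`: the only hole is the whole hole -/
theorem isHole_zero (hD : Dom Ω) (hR : Rie Ω a b) (hT : Typed Ω K h) {z : ℂ}
    (hz : z ∈ Ω \ (K : Set ℂ)) (U : Set ℂ) :
    IsHole (NCLE.hole Ω K z) (TV M Ω a K h s z 0) U ↔ U = NCLE.hole Ω K z := by
  have hV := isHole_hole hz
  have e : NCLE.hole Ω K z \ TV M Ω a K h s z 0 = NCLE.hole Ω K z := by
    refine Subset.antisymm sdiff_subset fun w hw => ⟨hw, fun h1 => ?_⟩
    rw [mem_TV hD.1 hz hw, (M.zero _).1] at h1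
    have h2 := (conf_hole hD.1 hR hT hV (mem_hole hz)).mg hw
    rw [mem_sphere] at h1
    rw [mem_ball, h1] at h2
    exact lt_irrefl _ h2
  unfold IsHole
  rw [e]
  constructor
  · rintro ⟨w, hw, rfl⟩
    exact (hole_conn hV).isPreconnected.connectedComponentIn hw
  · rintro rfl
    exact ⟨z, mem_hole hz, ((hole_conn hV).isPreconnected.connectedComponentIn (mem_hole hz)).symm⟩

theorem TV_congr (hT : Typed Ω K h) {z w : ℂ} (hz : z ∈ Ω \ (K : Set ℂ))
    (hw : w ∈ NCLE.hole Ω K z) : TV M Ω a K h s w = TV M Ω a K h s z := by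
  funext k
  unfold TV
  rw [hole_eq (isHole_hole hz) hw, ix_const hT (isHole_hole hz) hw (mem_hole hz)]

end Vale.Agent.P155.Tree.Hl
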